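import Mathlib

namespace Vale.Agent.Lib.P050

open Finset

variable {q : ℕ}

/-- sign of a bit -/
def sgb (b : Bool) : ℝ := if b then 1 else -1

lemma sgb_mul_self (b : Bool) : sgb b * sgb b = 1 := by cases b <;> simp [sgb]

/-- `1` on colour `i`, `-1` on colour `j`, `0` elsewhere. -/
def sij (i j k : Fin q) : ℝ := (if k = i then 1 else 0) - (if k = j then 1 else 0)

/-- the part of the indicator of `k = l` invariant under swapping `i` and `j` in one argument -/
noncomputable def Pij (i j k l : Fin q) : ℝ := (if k = l then 1 else 0) - sij i j k * sij i j l / 2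

lemma sij_swap (i j k : Fin q) : sij i j (Equiv.swap i j k) = - sij i j k := by
  unfold sij
  by_cases h1 : k = i
  · subst h1
    by_cases h2 : k = j
    · subst h2; simp
    · have h3 : j ≠ k := fun h => h2 h.symm
      simp [h2, h3]
  · by_cases h2 : k = j
    · subst h2
      have h3 : i ≠ k := fun h => h1 h.symm
      simp [h1, h3]
    · rw [Equiv.swap_apply_of_ne_of_ne h1 h2]
      simp [h1, h2]

lemma Pij_swap_left {i j : Fin q} (hij : i ≠ j) (k l : Fin q) :
    Pij i j (Equiv.swap i j k) l = Pij i j k l := by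
  by_cases h1 : k = i
  · subst h1
    rw [Equiv.swap_apply_left]
    unfold Pij sij
    have hji : j ≠ k := fun h => hij h.symm
    by_cases h3 : l = k
    · subst h3
      simp [hij, hji]; norm_num
    · by_cases h4 : l = j
      · subst h4
        simp [hij, hji]; norm_num
      · have h3' : k ≠ l := fun h => h3 h.symm
        have h4' : j ≠ l := fun h => h4 h.symm
        simp [h3, h4, h3', h4']
  · by_cases h2 : k = j
    · subst h2
      rw [Equiv.swap_apply_right]
      unfold Pij sij
      have hji : k ≠ i := fun h => hij h.symm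
      by_cases h3 : l = i
      · subst h3
        simp [hij, hji]; norm_num
      · by_cases h4 : l = k
        · subst h4
          simp [hij, hji]; norm_num
        · have h3' : i ≠ l := fun h => h3 h.symm
          have h4' : k ≠ l := fun h => h4 h.symm
          simp [h3, h4, h3', h4']
    · rw [Equiv.swap_apply_of_ne_of_ne h1 h2]

lemma Pij_comm (i j k l : Fin q) : Pij i j k l = Pij i j l k := by
  unfold Pij
  by_cases h : k = l
  · subst h; rfl
  · have h' : l ≠ k := fun e => h e.symm
    simp [h, h']; ring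

lemma Pij_swap_right {i j : Fin q} (hij : i ≠ j) (k l : Fin q) :
    Pij i j k (Equiv.swap i j l) = Pij i j k l := by
  rw [Pij_comm, Pij_swap_left hij, Pij_comm]

lemma sij_cases (i j k : Fin q) : sij i j k = 0 ∨ sij i j k = 1 ∨ sij i j k = -1 := by
  unfold sij
  split_ifs <;> simp

lemma sij_mul_of_ne (i j : Fin q) {k l : Fin q} (h : k ≠ l) :
    sij i j k * sij i j l = 0 ∨ sij i j k * sij i j l = -1 := by
  unfold sij
  by_cases h1 : k = i
  · subst h1
    have h3 : l ≠ k := fun e => h e.symm
    by_cases h2 : k = j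
    · subst h2; simp
    · by_cases h4 : l = j
      · subst h4; simp [h, h3]
      · simp [h2, h3, h4]
  · by_cases h2 : k = j
    · subst h2
      have h3 : l ≠ k := fun e => h e.symm
      by_cases h4 : l = i
      · subst h4; simp [h, h3]
      · simp [h1, h3, h4]
    · simp [h1, h2]

lemma Pij_bounds (i j k l : Fin q) : 0 ≤ Pij i j k l ∧ Pij i j k l ≤ 1 := by
  by_cases h : k = l
  · subst h
    unfold Pij
    rcases sij_cases i j k with h1 | h1 | h1 <;> rw [h1] <;> norm_num
  · unfold Pij
    rw [if_neg h]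
    rcases sij_mul_of_ne i j h with h1 | h1 <;> rw [h1] <;> norm_num

lemma ind_eq (i j k l : Fin q) :
    (if k = l then (1 : ℝ) else 0) = Pij i j k l + sij i j k * sij i j l / 2 := by
  unfold Pij; ring

lemma sum_diff_mul (a b : Fin q → ℝ) :
    ∑ i, ∑ j, (a i - a j) * (b i - b j)
      = 2 * ((q : ℝ) * ∑ i, a i * b i - (∑ i, a i) * ∑ i, b i) := by
  have h : ∀ i j : Fin q, (a i - a j) * (b i - b j)
      = a i * b i - a i * b j - a j * b i + a j * b j := by
    intro i j; ring
  simp only [h, Finset.sum_add_distrib, Finset.sum_sub_distrib, Finset.sum_const,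
    Finset.card_univ, Fintype.card_fin, nsmul_eq_mul, ← Finset.mul_sum, ← Finset.sum_mul]
  ring

lemma sum_sij (k l : Fin q) :
    ∑ i, ∑ j, sij i j k * sij i j l = 2 * ((q : ℝ) * (if k = l then 1 else 0) - 1) := by
  unfold sij
  rw [sum_diff_mul (fun i => if k = i then (1 : ℝ) else 0) (fun i => if l = i then (1 : ℝ) else 0)]
  have h1 : ∀ k : Fin q, ∑ i : Fin q, (if k = i then (1 : ℝ) else 0) = 1 := by
    intro k; simp
  have h2 : ∑ i : Fin q, (if k = i then (1 : ℝ) else 0) * (if l = i then 1 else 0)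
      = if k = l then 1 else 0 := by
    simp only [ite_mul, one_mul, zero_mul, Finset.sum_ite_eq, Finset.mem_univ, if_true]
    by_cases h : k = l
    · simp [h]
    · have h' : l ≠ k := fun e => h e.symm
      simp [h, h']
  rw [h1, h1, h2]
  ring

variable {V : Type*} [Fintype V] [DecidableEq V]

/-- swap the colours `i`, `j` at the vertices where `ε` is false -/
def tw (i j : Fin q) (ε : V → Bool) (c : V → Fin q) : V → Fin q :=
  fun z => if ε z then c z else Equiv.swap i j (c z)

omit [Fintype V] [DecidableEq V] in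
lemma tw_tw (i j : Fin q) (ε : V → Bool) (c : V → Fin q) : tw i j ε (tw i j ε c) = c := by
  funext z
  unfold tw
  by_cases h : ε z <;> simp [h]

lemma sum_tw (i j : Fin q) (ε : V → Bool) (h : (V → Fin q) → ℝ) :
    ∑ c, h (tw i j ε c) = ∑ c, h c :=
  Equiv.sum_comp (Function.Involutive.toPerm (tw i j ε) (tw_tw i j ε)) h

omit [Fintype V] [DecidableEq V] in
lemma sij_tw (i j : Fin q) (ε : V → Bool) (c : V → Fin q) (z : V) :
    sij i j (tw i j ε c z) = sgb (ε z) * sij i j (c z) := by
  unfold tw
  by_cases h : ε z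
  · simp [h, sgb]
  · simp [h, sgb, sij_swap]

omit [Fintype V] [DecidableEq V] in
lemma Pij_tw {i j : Fin q} (hij : i ≠ j) (ε : V → Bool) (c : V → Fin q) (x y : V) :
    Pij i j (tw i j ε c x) (tw i j ε c y) = Pij i j (c x) (c y) := by
  unfold tw
  by_cases h1 : ε x <;> by_cases h2 : ε y <;>
    simp [h1, h2, Pij_swap_left hij, Pij_swap_right hij]

/-- Potts weight of a colouring on an edge set. -/
def wt (θ : ℝ) (E : Finset (V × V)) (c : V → Fin q) : ℝ :=
  ∏ e ∈ E, (1 - θ * (if c e.1 = c e.2 then 1 else 0))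

lemma key_F (side : V → Bool) (E F : Finset (V × V))
    (hF : ∀ e ∈ F, side e.1 = true ∧ side e.2 = false) (u v : V) (hu : side u = true)
    (hv : side v = false) (θ : ℝ) (hθ : θ ≤ 1) {i j : Fin q} (hij : i ≠ j) :
    0 ≤ θ * ∑ c : V → Fin q, (-(sij i j (c u) * sij i j (c v))) *
      ((∏ e ∈ F, (-θ / 2) * (sij i j (c e.1) * sij i j (c e.2))) *
        ∏ e ∈ E \ F, (1 - θ * Pij i j (c e.1) (c e.2))) := by
  set M : (V → Fin q) → ℝ := fun c => sij i j (c u) * sij i j (c v) *
    ∏ e ∈ F, (sij i j (c e.1) * sij i j (c e.2)) with hM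
  set G : (V → Fin q) → ℝ := fun c => ∏ e ∈ E \ F, (1 - θ * Pij i j (c e.1) (c e.2)) with hG
  set K : (V → Bool) → ℝ := fun ε => sgb (ε u) * sgb (ε v) *
    ∏ e ∈ F, (sgb (ε e.1) * sgb (ε e.2)) with hK
  have hGnn : ∀ c, 0 ≤ G c := by
    intro c
    refine Finset.prod_nonneg fun e _ => ?_
    obtain ⟨h0, h1⟩ := Pij_bounds i j (c e.1) (c e.2)
    nlinarith
  have hGtw : ∀ ε c, G (tw i j ε c) = G c := by
    intro ε c
    simp only [hG, Pij_tw hij]
  have hMtw : ∀ ε c, M (tw i j ε c) = K ε * M c := by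
    intro ε c
    simp only [hM, hK, sij_tw]
    have : ∏ e ∈ F, (sgb (ε e.1) * sij i j (c e.1) * (sgb (ε e.2) * sij i j (c e.2)))
        = (∏ e ∈ F, (sgb (ε e.1) * sgb (ε e.2))) * ∏ e ∈ F, (sij i j (c e.1) * sij i j (c e.2)) := by
      rw [← Finset.prod_mul_distrib]
      refine Finset.prod_congr rfl fun e _ => by ring
    rw [this]; ring
  set T : ℝ := ∑ c, M c * G c with hT
  have hTK : ∀ ε, T = K ε * T := by
    intro ε
    have h1 := sum_tw i j ε (fun c => M c * G c)
    simp only [hMtw, hGtw] at h1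
    calc T = ∑ c, K ε * M c * G c := h1.symm
      _ = K ε * T := by
        rw [hT, Finset.mul_sum]
        exact Finset.sum_congr rfl fun c _ => by ring
  have hKK : ∀ ε, K ε * K ε = 1 := by
    intro ε
    simp only [hK]
    have h1 : (∏ e ∈ F, (sgb (ε e.1) * sgb (ε e.2))) * (∏ e ∈ F, (sgb (ε e.1) * sgb (ε e.2))) = 1 := by
      rw [← Finset.prod_mul_distrib]
      refine Finset.prod_eq_one fun e _ => ?_
      have a := sgb_mul_self (ε e.1)
      have b := sgb_mul_self (ε e.2)
      calc sgb (ε e.1) * sgb (ε e.2) * (sgb (ε e.1) * sgb (ε e.2))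
          = (sgb (ε e.1) * sgb (ε e.1)) * (sgb (ε e.2) * sgb (ε e.2)) := by ring
        _ = 1 := by rw [a, b]; ring
    have a := sgb_mul_self (ε u)
    have b := sgb_mul_self (ε v)
    calc sgb (ε u) * sgb (ε v) * (∏ e ∈ F, (sgb (ε e.1) * sgb (ε e.2))) *
          (sgb (ε u) * sgb (ε v) * ∏ e ∈ F, (sgb (ε e.1) * sgb (ε e.2)))
        = (sgb (ε u) * sgb (ε u)) * (sgb (ε v) * sgb (ε v)) *
          ((∏ e ∈ F, (sgb (ε e.1) * sgb (ε e.2))) * ∏ e ∈ F, (sgb (ε e.1) * sgb (ε e.2))) := by ring
      _ = 1 := by rw [a, b, h1]; ring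
  have hsum : ∑ c : V → Fin q, (-(sij i j (c u) * sij i j (c v))) *
      ((∏ e ∈ F, (-θ / 2) * (sij i j (c e.1) * sij i j (c e.2))) *
        ∏ e ∈ E \ F, (1 - θ * Pij i j (c e.1) (c e.2))) = -((-θ / 2) ^ F.card) * T := by
    rw [hT, Finset.mul_sum]
    refine Finset.sum_congr rfl fun c _ => ?_
    rw [Finset.prod_mul_distrib, Finset.prod_const]
    simp only [hM, hG]
    ring
  rw [hsum]
  by_cases hall : ∀ ε, K ε = 1
  · -- parity and positivity
    have hpar : (-1 : ℝ) ^ (F.card + 1) = 1 := by
      have h1 := hall (fun z => !(side z))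
      simp only [hK, hu, hv] at h1
      have h2 : ∏ e ∈ F, (sgb (!(side e.1)) * sgb (!(side e.2))) = (-1 : ℝ) ^ F.card := by
        rw [← Finset.prod_const]
        refine Finset.prod_congr rfl fun e he => ?_
        obtain ⟨a, b⟩ := hF e he
        rw [a, b]; simp [sgb]
      rw [h2] at h1
      have h3 : sgb (!true) * sgb (!false) = -1 := by simp [sgb]
      rw [h3] at h1
      rw [pow_succ]
      linarith
    have heven : Even (F.card + 1) := by
      rcases Nat.even_or_odd (F.card + 1) with h | h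
      · exact h
      · rw [h.neg_one_pow] at hpar
        norm_num at hpar
    have hMnn : ∀ c, 0 ≤ M c := by
      intro c
      have h1 := hMtw (fun z => decide (0 ≤ sij i j (c z))) c
      rw [hall (fun z => decide (0 ≤ sij i j (c z))), one_mul] at h1
      rw [← h1]
      have hnn : ∀ z, 0 ≤ sij i j (tw i j (fun z => decide (0 ≤ sij i j (c z))) c z) := by
        intro z
        rw [sij_tw]
        by_cases h : 0 ≤ sij i j (c z)
        · simp [h, sgb]
        · simp only [h, decide_false, sgb]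
          have : sij i j (c z) < 0 := not_le.mp h
          simp
          linarith
      simp only [hM]
      exact mul_nonneg (mul_nonneg (hnn u) (hnn v))
        (Finset.prod_nonneg fun e _ => mul_nonneg (hnn _) (hnn _))
    have hTnn : 0 ≤ T := Finset.sum_nonneg fun c _ => mul_nonneg (hMnn c) (hGnn c)
    have e1 : θ * (-((-θ / 2) ^ F.card) * T) = ((-θ) ^ (F.card + 1) / 2 ^ F.card) * T := by
      rw [div_pow, pow_succ]; ring
    rw [e1]
    exact mul_nonneg (div_nonneg (heven.pow_nonneg _) (by positivity)) hTnn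
  · push Not at hall
    obtain ⟨ε, hε⟩ := hall
    have h1 : K ε = -1 := by
      have h2 := hKK ε
      have h3 : (K ε - 1) * (K ε + 1) = 0 := by ring_nf; nlinarith
      rcases mul_eq_zero.mp h3 with h | h
      · exact absurd (by linarith) hε
      · linarith
    have h2 := hTK ε
    rw [h1] at h2
    have h3 : T = 0 := by linarith
    rw [h3]; simp

lemma key_pair (side : V → Bool) (E : Finset (V × V))
    (hE : ∀ e ∈ E, side e.1 = true ∧ side e.2 = false) (u v : V) (hu : side u = true)
    (hv : side v = false) (θ : ℝ) (hθ : θ ≤ 1) (i j : Fin q) :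
    0 ≤ θ * ∑ c : V → Fin q, (-(sij i j (c u) * sij i j (c v))) * wt θ E c := by
  by_cases hij : i = j
  · subst hij
    simp [sij]
  have h1 : ∀ c : V → Fin q, wt θ E c = ∑ F ∈ E.powerset,
      ((∏ e ∈ F, (-θ / 2) * (sij i j (c e.1) * sij i j (c e.2))) *
        ∏ e ∈ E \ F, (1 - θ * Pij i j (c e.1) (c e.2))) := by
    intro c
    unfold wt
    rw [← Finset.prod_add]
    refine Finset.prod_congr rfl fun e _ => ?_
    rw [ind_eq i j]; ring
  simp only [h1, Finset.mul_sum]
  rw [Finset.sum_comm]
  refine Finset.sum_nonneg fun F hF => ?_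
  have hFE : F ⊆ E := Finset.mem_powerset.mp hF
  have := key_F side E F (fun e he => hE e (hFE he)) u v hu hv θ hθ hij
  rw [Finset.mul_sum] at this
  exact this

lemma key_edge (side : V → Bool) (E : Finset (V × V))
    (hE : ∀ e ∈ E, side e.1 = true ∧ side e.2 = false) (u v : V) (hu : side u = true)
    (hv : side v = false) (θ : ℝ) (hθ : θ ≤ 1) :
    0 ≤ θ * ∑ c : V → Fin q, (1 - (q : ℝ) * (if c u = c v then 1 else 0)) * wt θ E c := by
  have h1 : ∀ c : V → Fin q, 2 * ((1 - (q : ℝ) * (if c u = c v then 1 else 0)) * wt θ E c)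
      = ∑ i, ∑ j, (-(sij i j (c u) * sij i j (c v))) * wt θ E c := by
    intro c
    simp only [← Finset.sum_mul, Finset.sum_neg_distrib, sum_sij]
    ring
  have h2 : 2 * (θ * ∑ c : V → Fin q, (1 - (q : ℝ) * (if c u = c v then 1 else 0)) * wt θ E c)
      = ∑ i, ∑ j, θ * ∑ c : V → Fin q, (-(sij i j (c u) * sij i j (c v))) * wt θ E c := by
    have h3 : ∑ i : Fin q, ∑ j : Fin q, ∑ c : V → Fin q,
        (-(sij i j (c u) * sij i j (c v))) * wt θ E c
        = ∑ c : V → Fin q, ∑ i : Fin q, ∑ j : Fin q,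
          (-(sij i j (c u) * sij i j (c v))) * wt θ E c := by
      calc ∑ i : Fin q, ∑ j : Fin q, ∑ c : V → Fin q,
            (-(sij i j (c u) * sij i j (c v))) * wt θ E c
          = ∑ i : Fin q, ∑ c : V → Fin q, ∑ j : Fin q,
            (-(sij i j (c u) * sij i j (c v))) * wt θ E c :=
            Finset.sum_congr rfl fun i _ => Finset.sum_comm
        _ = _ := Finset.sum_comm
    simp only [← Finset.mul_sum]
    rw [h3]
    simp only [← h1, ← Finset.mul_sum]
    ring
  have h4 : 0 ≤ ∑ i, ∑ j, θ * ∑ c : V → Fin q,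
      (-(sij i j (c u) * sij i j (c v))) * wt θ E c :=
    Finset.sum_nonneg fun i _ => Finset.sum_nonneg fun j _ =>
      key_pair side E hE u v hu hv θ hθ i j
  linarith

lemma wt_nonneg (θ : ℝ) (hθ : θ ≤ 1) (E : Finset (V × V)) (c : V → Fin q) : 0 ≤ wt θ E c := by
  unfold wt
  refine Finset.prod_nonneg fun e _ => ?_
  split_ifs <;> linarith

/-- The Potts partition function of a bipartite graph is at least its mean-field value. -/
theorem potts_lower (side : V → Bool) (hq : 1 ≤ q) (θ : ℝ) (hθ : θ ≤ 1) (E : Finset (V × V))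
    (hE : ∀ e ∈ E, side e.1 = true ∧ side e.2 = false) :
    (q : ℝ) ^ Fintype.card V * (1 - θ / q) ^ E.card ≤ ∑ c : V → Fin q, wt θ E c := by
  have hq0 : (0 : ℝ) < q := by exact_mod_cast hq
  have hq1 : (1 : ℝ) ≤ q := by exact_mod_cast hq
  have hfac : 0 ≤ 1 - θ / q := by
    have : θ / q ≤ 1 := by
      rw [div_le_one hq0]; linarith
    linarith
  induction E using Finset.induction_on with
  | empty =>
    simp [wt]
  | insert e E he ih =>
    have hE' : ∀ e' ∈ E, side e'.1 = true ∧ side e'.2 = false :=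
      fun e' h => hE e' (Finset.mem_insert_of_mem h)
    have ih' := ih hE'
    obtain ⟨hu, hv⟩ := hE e (Finset.mem_insert_self e E)
    have key := key_edge (q := q) side E hE' e.1 e.2 hu hv θ hθ
    have hw : ∀ c : V → Fin q, wt θ (insert e E) c
        = (1 - θ * (if c e.1 = c e.2 then 1 else 0)) * wt θ E c := by
      intro c
      unfold wt
      rw [Finset.prod_insert he]
    have hsplit : ∑ c : V → Fin q, wt θ (insert e E) c
        = (1 - θ / q) * ∑ c : V → Fin q, wt θ E c
          + (θ * ∑ c : V → Fin q, (1 - (q : ℝ) * (if c e.1 = c e.2 then 1 else 0)) * wt θ E c) / q := by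
      simp only [hw, Finset.mul_sum, Finset.sum_div]
      rw [← Finset.sum_add_distrib]
      refine Finset.sum_congr rfl fun c _ => ?_
      field_simp
      ring
    rw [hsplit, Finset.card_insert_of_notMem he, pow_succ]
    have h1 : (q : ℝ) ^ Fintype.card V * ((1 - θ / q) ^ E.card * (1 - θ / q))
        = (1 - θ / q) * ((q : ℝ) ^ Fintype.card V * (1 - θ / q) ^ E.card) := by ring
    rw [h1]
    have h2 := mul_le_mul_of_nonneg_left ih' hfac
    have h3 : 0 ≤ (θ * ∑ c : V → Fin q,
        (1 - (q : ℝ) * (if c e.1 = c e.2 then 1 else 0)) * wt θ E c) / q := div_nonneg key hq0.le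
    linarith

end Vale.Agent.Lib.P050
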